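import Mathlib

set_option autoImplicit false

/-!
# P181, RG, [MAT]: two determinants

`det_dom`: the matrix `t ^ (∑ i, τ i * σ i)` on the permutations is strictly diagonally dominant.
`det_one`, `det_two`: the identity matrix with one or two rows replaced.
-/

namespace Vale.Agent.P181.RG.H88

open Finset

theorem sum_mul_lt {u : ℕ} {τ σ : Equiv.Perm (Fin u)} (h : τ ≠ σ) :
    ∑ i, (τ i : ℕ) * (σ i : ℕ) + 1 ≤ ∑ i : Fin u, (i : ℕ) * (i : ℕ) := by
  have h1 : ∑ i, (τ i : ℕ) * (τ i : ℕ) = ∑ i : Fin u, (i : ℕ) * (i : ℕ) :=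
    Equiv.sum_comp τ fun i : Fin u => (i : ℕ) * (i : ℕ)
  have h2 : ∑ i, (σ i : ℕ) * (σ i : ℕ) = ∑ i : Fin u, (i : ℕ) * (i : ℕ) :=
    Equiv.sum_comp σ fun i : Fin u => (i : ℕ) * (i : ℕ)
  obtain ⟨i₀, hi₀⟩ : ∃ i, τ i ≠ σ i := by
    by_contra hc
    push Not at hc
    exact h (Equiv.ext hc)
  have h3 : (0 : ℤ) < ∑ i, (((τ i : ℕ) : ℤ) - ((σ i : ℕ) : ℤ)) ^ 2 := by
    refine Finset.sum_pos' (fun i _ => sq_nonneg _) ⟨i₀, Finset.mem_univ _, ?_⟩
    have h4 : ((τ i₀ : ℕ) : ℤ) - ((σ i₀ : ℕ) : ℤ) ≠ 0 := by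
      intro h5
      exact hi₀ (Fin.ext (by omega))
    positivity
  have h4 : ∑ i, (((τ i : ℕ) : ℤ) - ((σ i : ℕ) : ℤ)) ^ 2 =
      ∑ i, ((τ i : ℕ) : ℤ) * ((τ i : ℕ) : ℤ) + ∑ i, ((σ i : ℕ) : ℤ) * ((σ i : ℕ) : ℤ) -
        2 * ∑ i, ((τ i : ℕ) : ℤ) * ((σ i : ℕ) : ℤ) := by
    rw [← Finset.sum_add_distrib, Finset.mul_sum, ← Finset.sum_sub_distrib]
    exact Finset.sum_congr rfl fun i _ => by ring
  have h1' : ∑ i, ((τ i : ℕ) : ℤ) * ((τ i : ℕ) : ℤ) = ((∑ i : Fin u, (i : ℕ) * (i : ℕ) : ℕ) : ℤ) := by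
    rw [← h1]
    push_cast
    rfl
  have h2' : ∑ i, ((σ i : ℕ) : ℤ) * ((σ i : ℕ) : ℤ) = ((∑ i : Fin u, (i : ℕ) * (i : ℕ) : ℕ) : ℤ) := by
    rw [← h2]
    push_cast
    rfl
  have h5 : ((∑ i, (τ i : ℕ) * (σ i : ℕ) : ℕ) : ℤ) = ∑ i, ((τ i : ℕ) : ℤ) * ((σ i : ℕ) : ℤ) := by
    push_cast
    rfl
  rw [h1', h2', ← h5] at h4
  omega

/-- **(ii)** -/
theorem det_dom {u t : ℕ} (ht : u.factorial ≤ t) :
    (Matrix.of fun τ σ : Equiv.Perm (Fin u) =>
      (t : ℂ) ^ (∑ i, (τ i : ℕ) * (σ i : ℕ))).det ≠ 0 := by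
  classical
  have ht0 : 0 < t := lt_of_lt_of_le (Nat.factorial_pos u) ht
  apply det_ne_zero_of_sum_row_lt_diag
  intro τ
  simp only [Matrix.of_apply, norm_pow, Complex.norm_natCast]
  have h1 : ∑ i, (τ i : ℕ) * (τ i : ℕ) = ∑ i : Fin u, (i : ℕ) * (i : ℕ) :=
    Equiv.sum_comp τ fun i : Fin u => (i : ℕ) * (i : ℕ)
  rw [h1]
  set S := ∑ i : Fin u, (i : ℕ) * (i : ℕ) with hS
  have htR : (0 : ℝ) < t := by exact_mod_cast ht0
  have ht1 : (1 : ℝ) ≤ t := by exact_mod_cast ht0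
  have h2 : (∑ σ ∈ univ.erase τ, (t : ℝ) ^ (∑ i, (τ i : ℕ) * (σ i : ℕ))) * t ≤
      ((univ.erase τ).card : ℝ) * (t : ℝ) ^ S := by
    rw [Finset.sum_mul, ← nsmul_eq_mul]
    refine Finset.sum_le_card_nsmul _ _ _ fun σ hσ => ?_
    rw [← pow_succ]
    exact pow_le_pow_right₀ ht1 (sum_mul_lt (Finset.ne_of_mem_erase hσ).symm)
  have h3 : ((univ.erase τ).card : ℝ) < t := by
    have h4 : (univ.erase τ).card + 1 = u.factorial := by
      rw [Finset.card_erase_add_one (Finset.mem_univ τ), Finset.card_univ, Fintype.card_perm,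
        Fintype.card_fin]
    have h5 : (univ.erase τ).card < t := by omega
    exact_mod_cast h5
  have h4 : (0 : ℝ) < (t : ℝ) ^ S := pow_pos htR S
  have h5 : (∑ σ ∈ univ.erase τ, (t : ℝ) ^ (∑ i, (τ i : ℕ) * (σ i : ℕ))) * t <
      (t : ℝ) ^ S * t := by
    calc _ ≤ ((univ.erase τ).card : ℝ) * (t : ℝ) ^ S := h2
      _ < t * (t : ℝ) ^ S := mul_lt_mul_of_pos_right h3 h4
      _ = _ := mul_comm _ _
  exact lt_of_mul_lt_mul_right h5 htR.le

section
variable {R : Type*} [CommRing R] {n : Type*} [Fintype n] [DecidableEq n]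

/-- **(i)** all rows are unit vectors except the row `r`. -/
theorem det_one (A : Matrix n n R) (r : n) (h : ∀ s, s ≠ r → ∀ c, A s c = if c = s then 1 else 0) :
    A.det = A r r := by
  have h1 : A = (1 : Matrix n n R).updateRow r (A r) := by
    ext s c
    by_cases hs : s = r
    · subst hs
      rw [Matrix.updateRow_self]
    · rw [Matrix.updateRow_ne hs, h s hs, Matrix.one_apply]
      by_cases hc : c = s
      · rw [if_pos hc, if_pos hc.symm]
      · rw [if_neg hc, if_neg (Ne.symm hc)]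
  conv_lhs => rw [h1]
  rw [← Matrix.cramer_transpose_apply, Matrix.transpose_one, Matrix.cramer_one]
  rfl

/-- **(i)** all rows are unit vectors except the rows `r`, `s`. -/
theorem det_two (A : Matrix n n R) (r s : n) (hrs : r ≠ s)
    (h : ∀ x, x ≠ r → x ≠ s → ∀ c, A x c = if c = x then 1 else 0) :
    A.det = A r r * A s s - A r s * A s r := by
  have h0 : A.det = ∑ j, A s j * (A.updateRow s (Pi.single j 1)).det := by
    have h1 := congrFun (Matrix.cramer_eq_adjugate_mulVec A.transpose (A s)) s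
    rw [Matrix.cramer_transpose_apply, Matrix.updateRow_eq_self] at h1
    rw [h1, Matrix.mulVec, dotProduct]
    refine Finset.sum_congr rfl fun j _ => ?_
    rw [mul_comm, ← Matrix.adjugate_transpose, Matrix.transpose_apply, Matrix.adjugate_apply]
  have h1 : ∀ j, j ≠ r → j ≠ s → (A.updateRow s (Pi.single j 1)).det = 0 := by
    intro j hjr hjs
    refine Matrix.det_zero_of_row_eq hjs ?_
    rw [Matrix.updateRow_self, Matrix.updateRow_ne hjs]
    funext c
    rw [h j hjr hjs, Pi.single_apply]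
  have h2 : (A.updateRow s (Pi.single s 1)).det = A r r := by
    rw [det_one _ r, Matrix.updateRow_ne hrs]
    intro x hx c
    by_cases hxs : x = s
    · subst hxs
      rw [Matrix.updateRow_self, Pi.single_apply]
    · rw [Matrix.updateRow_ne hxs, h x hx hxs]
  have h3 : (A.updateRow s (Pi.single r 1)).det = - A r s := by
    have h4 := Matrix.det_permute (Equiv.swap r s) (A.updateRow s (Pi.single r 1))
    rw [Equiv.Perm.sign_swap hrs] at h4
    have h5 : ((A.updateRow s (Pi.single r 1)).submatrix (Equiv.swap r s) id).det = A r s := by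
      rw [det_one _ s, Matrix.submatrix_apply, Equiv.swap_apply_right, id,
        Matrix.updateRow_ne hrs]
      intro x hx c
      rw [Matrix.submatrix_apply, id]
      by_cases hxr : x = r
      · subst hxr
        rw [Equiv.swap_apply_left, Matrix.updateRow_self, Pi.single_apply]
      · rw [Equiv.swap_apply_of_ne_of_ne hxr hx, Matrix.updateRow_ne hx, h x hxr hx]
    rw [h5] at h4
    push_cast at h4
    rw [h4]
    ring
  rw [h0, ← Finset.sum_subset (Finset.subset_univ {r, s}), Finset.sum_pair hrs, h2, h3]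
  · ring
  · intro j _ hj
    rw [Finset.mem_insert, Finset.mem_singleton, not_or] at hj
    rw [h1 j hj.1 hj.2, mul_zero]

end

end Vale.Agent.P181.RG.H88
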